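import Vale.Agent.P313.H931.Two
import Vale.Agent.P313.H931.FibDec
import Vale.Agent.P313.NW.BP.Inst

/-!
# The mean of the loss over all tapes (MEAN, `mL` and `bL`)
-/

namespace Vale.Agent.P313.NW.H931

open Vale.Agent.P313.H931

open Finset Classical Vale.Agent.P313.NW.H136 Vale.Agent.P313.H136 Vale.Agent.P313.NW.BP
open _root_.P313.H931 (tapeOf)

variable (p : Par2) [hq0 : NeZero p.q]

theorem lo_eq (d : SD) (Z : ℕ → Prop) (a x z : ℕ) (t : Tp)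
    (h : x < p.n ∧ z < (lay p d).q ^ (lay p d).c x) :
    (theTSem p).Lo d Z a x z t =
      if p.Lam ≤ (sysc p d).W (a + 1) (dec p d (a + 1) ⟨x, h.1⟩ ⟨z, h.2⟩ t) then
        (lv2 (sysc p d) p.Lam {w : Fin p.n | Z w} a
          (dec p d (a + 1) ⟨x, h.1⟩ ⟨z, h.2⟩ t)).card
      else 0 := by
  show (if h : x < p.n ∧ z < (lay p d).q ^ (lay p d).c x then _ else 0) = _
  rw [dif_pos h]
  rfl

/-- the loss at level `a` as a function of tokens -/
noncomputable def gL (d : SD) (Z : ℕ → Prop) (a : ℕ) (y : TokS p d (a + 1)) : ℝ :=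
  if p.Lam ≤ (sysc p d).W (a + 1) y then
    (sysc p d).two p.Lam {w : Fin p.n | Z w} a
      ((sysc p d).Ts p.Lam {w : Fin p.n | Z w} a fun _ => 1) y
  else 0

theorem lo_cast (d : SD) (Z : ℕ → Prop) (a x z : ℕ) (t : Tp)
    (h : x < p.n ∧ z < (lay p d).q ^ (lay p d).c x) :
    ((theTSem p).Lo d Z a x z t : ℝ) = gL p d Z a (dec p d (a + 1) ⟨x, h.1⟩ ⟨z, h.2⟩ t) := by
  rw [lo_eq p d Z a x z t h]
  unfold gL
  split_ifs
  · exact two_count _ _ _ _ _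
  · simp

theorem lo_le (d : SD) (Z : ℕ → Prop) (a x z : ℕ) (t : Tp) :
    (theTSem p).Lo d Z a x z t ≤ p.Lam ^ 2 := by
  by_cases h : x < p.n ∧ z < (lay p d).q ^ (lay p d).c x
  · rw [lo_eq p d Z a x z t h]
    split_ifs
    · exact two_count_le _ _ _ _ _
    · exact Nat.zero_le _
  · show (if h : x < p.n ∧ z < (lay p d).q ^ (lay p d).c x then _ else 0) ≤ _
    rw [dif_neg h]
    exact Nat.zero_le _

theorem hX_eq (d : SD) (Z : ℕ → Prop) (a : ℕ) (x : Fin p.n) (μ : ℝ) :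
    (sysc p d).hX μ p.Lam {w : Fin p.n | Z w} a x =
      μ / (p.q : ℝ) ^ (310 * (a + 1)) * ∑ u : TokS p d (a + 1),
        if (lay p d).st (a + 1) u = x then gL p d Z a u else 0 := by
  have hwt : (sysc p d).wt μ (a + 1) = μ / (p.q : ℝ) ^ (310 * (a + 1)) := by
    unfold Sys.wt
    rw [card_lab]
    push_cast
    rw [← pow_mul]
    rfl
  unfold Sys.hX
  rw [← Finset.mul_sum, hwt, Finset.sum_filter]
  congr 1
  refine Finset.sum_congr rfl fun u _ => ?_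
  have e : (sysc p d).stT (a + 1) u = (lay p d).st (a + 1) u := H205.Lay.stT_sys _ _ _ _
  rw [e]
  unfold gL
  by_cases h1 : (lay p d).st (a + 1) u = x
  · by_cases h2 : p.Lam ≤ (sysc p d).W (a + 1) u
    · rw [if_pos ⟨h1, h2⟩, if_pos h1, if_pos h2]
    · rw [if_neg (fun h => h2 h.2), if_pos h1, if_neg h2]
  · rw [if_neg (fun h => h1 h.1), if_neg h1]

theorem hh_eq (d : SD) (x : Fin p.n) (μ : ℝ) :
    (sysc p d).hh μ x = μ * (p.q : ℝ) ^ (lay p d).c x := by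
  unfold Sys.hh
  congr 1
  have h := H205.Lay.card_X0 (Y := lay p d) x
  have h2 : ((lay p d).q : ℝ) ^ (lay p d).c x = (p.q : ℝ) ^ (lay p d).c x := rfl
  rw [← h2, ← Nat.cast_pow, ← h]
  norm_cast
  exact congrArg Finset.card (Finset.filter_congr_decidable _ _ _)

theorem sum_lo (d : SD) (Z : ℕ → Prop) {a : ℕ} (ha : a < p.r) (x : Fin p.n) {μ : ℝ} (hμ : μ ≠ 0) :
    ∑ z ∈ range ((lay p d).q ^ (lay p d).c x), ∑ y : Fin p.L → ZMod p.q,
      ((theTSem p).Lo d Z a x z (tapeOf y) : ℝ) =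
      (p.q : ℝ) ^ p.L * ((sysc p d).hX μ p.Lam {w : Fin p.n | Z w} a x / μ) := by
  have hq : (p.q : ℝ) ≠ 0 := Nat.cast_ne_zero.2 (NeZero.ne p.q)
  have hL : 10 * (lay p d).t * (a + 1) ≤ p.L := by
    show 10 * 31 * (a + 1) ≤ 310 * p.r
    omega
  have h1 := sum_dec (Y := lay p d) hL x (gL p d Z a)
  have h2 : ∑ z ∈ range ((lay p d).q ^ (lay p d).c x), ∑ y : Fin p.L → ZMod p.q,
      ((theTSem p).Lo d Z a x z (tapeOf y) : ℝ) =
      ∑ z : Fin ((lay p d).q ^ (lay p d).c x), ∑ y : Fin p.L → ZMod (lay p d).q,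
        gL p d Z a ((lay p d).dec (a + 1) x z (tapeOf y)) := by
    rw [Finset.sum_range]
    refine Finset.sum_congr rfl fun z _ => Finset.sum_congr rfl fun y _ => ?_
    exact lo_cast p d Z a x z (tapeOf y) ⟨x.2, z.2⟩
  rw [h2, hX_eq]
  have h3 : ((lay p d).q : ℝ) = (p.q : ℝ) := rfl
  have h4 : 10 * (lay p d).t * (a + 1) = 310 * (a + 1) := rfl
  rw [h3, h4] at h1
  have h5 : (p.q : ℝ) ^ (310 * (a + 1)) ≠ 0 := pow_ne_zero _ hq
  have h6 : (p.q : ℝ) ^ p.L * ∑ u : TokS p d (a + 1),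
      (if (lay p d).st (a + 1) u = x then gL p d Z a u else 0) =
      (∑ z : Fin ((lay p d).q ^ (lay p d).c x), ∑ y : Fin p.L → ZMod (lay p d).q,
        gL p d Z a ((lay p d).dec (a + 1) x z (tapeOf y))) * (p.q : ℝ) ^ (310 * (a + 1)) := by
    rw [h1]
    congr 1
    refine Finset.sum_congr rfl fun u _ => ?_
    congr
  rw [eq_comm, div_mul_eq_mul_div, div_div, mul_div_assoc', div_eq_iff (mul_ne_zero h5 hμ),
    mul_left_comm]
  refine (congrArg (μ * ·) h6).trans ?_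
  ring

/-- **the mean of the loss** -/
theorem mean_loss (d : SD) (Z : ℕ → Prop) (hc : ∀ x < p.n, d.c x ≤ p.cmax) {x : ℕ}
    (hx : x < p.n) :
    (∑ y : Fin p.L → ZMod p.q, (lossT p (theTSem p) d Z x (tapeOf y) : ℝ)) =
      (p.q : ℝ) ^ p.L * ((p.q : ℝ) ^ d.c x * (theSem p).loss d Z x) := by
  have hq : (p.q : ℝ) ≠ 0 := Nat.cast_ne_zero.2 (NeZero.ne p.q)
  have hcx : (lay p d).c x = d.c x := min_eq_left (hc x hx)
  set μ : ℝ := 1 / (p.q : ℝ) ^ p.b with hμdef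
  have hμ : μ ≠ 0 := one_div_ne_zero (pow_ne_zero _ hq)
  have h1 : ∀ y : Fin p.L → ZMod p.q, (lossT p (theTSem p) d Z x (tapeOf y) : ℝ) =
      ∑ a ∈ range p.r, ∑ z ∈ range ((lay p d).q ^ (lay p d).c x),
        ((theTSem p).Lo d Z a x z (tapeOf y) : ℝ) := by
    intro y
    unfold lossT
    rw [hcx]
    push_cast
    rfl
  rw [Finset.sum_congr rfl fun y _ => h1 y, Finset.sum_comm]
  have h2 : ∀ a ∈ range p.r, ∑ y : Fin p.L → ZMod p.q,
      ∑ z ∈ range ((lay p d).q ^ (lay p d).c x), ((theTSem p).Lo d Z a x z (tapeOf y) : ℝ) =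
      (p.q : ℝ) ^ p.L * ((sysc p d).hX μ p.Lam {w : Fin p.n | Z w} a ⟨x, hx⟩ / μ) := by
    intro a ha
    rw [Finset.sum_comm]
    exact sum_lo p d Z (Finset.mem_range.1 ha) ⟨x, hx⟩ hμ
  rw [Finset.sum_congr rfl h2, ← Finset.mul_sum]
  congr 1
  have h3 : (theSem p).loss d Z x =
      (∑ a ∈ range p.r, (sysc p d).hX μ p.Lam {w : Fin p.n | Z w} a ⟨x, hx⟩) /
        (sysc p d).hh μ ⟨x, hx⟩ := by
    show (if h : x < p.n then _ else 0) = _
    rw [dif_pos hx]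
  rw [h3, hh_eq, ← Finset.sum_div]
  have h4 : (lay p d).c (⟨x, hx⟩ : Fin p.n) = d.c x := hcx
  rw [h4]
  have h5 : (p.q : ℝ) ^ d.c x ≠ 0 := pow_ne_zero _ hq
  field_simp

/-- bound for the loss -/
theorem lossT_le (d : SD) (Z : ℕ → Prop) (hc : ∀ x < p.n, d.c x ≤ p.cmax) {x : ℕ}
    (hx : x < p.n) (t : Tp) :
    lossT p (theTSem p) d Z x t ≤ p.r * (p.q ^ p.cmax * p.Lam ^ 2) := by
  unfold lossT
  calc ∑ a ∈ range p.r, ∑ z ∈ range (p.q ^ d.c x), (theTSem p).Lo d Z a x z t ≤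
      ∑ _a ∈ range p.r, ∑ _z ∈ range (p.q ^ d.c x), p.Lam ^ 2 :=
        Finset.sum_le_sum fun a _ => Finset.sum_le_sum fun z _ => lo_le p d Z a x z t
    _ = p.r * (p.q ^ d.c x * p.Lam ^ 2) := by simp
    _ ≤ p.r * (p.q ^ p.cmax * p.Lam ^ 2) := by
        gcongr
        · exact Nat.pos_of_ne_zero (NeZero.ne p.q)
        · exact hc x hx

end Vale.Agent.P313.NW.H931
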