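import Vale.Agent.P313.NW.H931.Avg
import Vale.Agent.P313.NW.BP.PhVal

/-!
# Block F2: the phases AVERAGE (kinds 0 and 2) and AVERAGE of the loss
-/

namespace Vale.Agent.P313.NW.H931

open Vale.Agent.P313.H931

open Finset Vale.Agent.P313.NW.CT Vale.Agent.P313.CT
open _root_.P313.H931 (pw uco lco sdg TVal)
open Vale.Agent.P313.NW.BP (Par2 SD TSem Sem Tp q1 q2 q3 q4 e2 e3 vq phVal Ans TpOk ptN lnN dgN
  sumJ upN flow lossT avgV avgL phData phT0 phPJ0 phT2 phPJ2 phLT phLJ)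

/-! ### The digits agree -/

lemma pw_eq (Q x k : ℕ) : pw Q x k = x ^ k % Q := by
  unfold pw
  induction k with
  | zero => simp
  | succ k ih => rw [Function.iterate_succ_apply', ih, pow_succ, Nat.mod_mul_mod]

lemma uco_eq (p : Par2) (w : ℕ → ℕ) (k j : ℕ) : uco p.Q p.DC w k j = ptN p w j k := by
  unfold ptN
  induction j with
  | zero => simp [uco]
  | succ j ih =>
    have h1 : uco p.Q p.DC w k (j + 1) = (uco p.Q p.DC w k j +
      w (2 * p.DC + 2 * j + 1) * pw p.Q (w (2 * p.DC + 2 * j)) k) % p.Q := rfl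
    rw [h1, ih, pw_eq, Finset.sum_range_succ, ← add_assoc, Nat.mod_add_mod, Nat.add_mod,
      Nat.mul_mod, Nat.mod_mod, ← Nat.mul_mod, ← Nat.add_mod]

lemma sdg_eq_dgN (p : Par2) (w : ℕ → ℕ) (j σ i : ℕ) (hi : i / p.c0 < p.DC) :
    sdg p.q p.c0 p.Q p.DC w j σ i = dgN p w j σ i := by
  unfold sdg dgN lnN lco
  rw [if_pos hi, uco_eq, uco_eq, _root_.P313.H931.iterate_div]

lemma uco_congr {Q D l : ℕ} {w w' : ℕ → ℕ} (h : ∀ i < 2 * D + 2 * l, w i = w' i) {k j : ℕ}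
    (hk : k < 2 * D) (hj : j ≤ l) : uco Q D w k j = uco Q D w' k j := by
  induction j with
  | zero =>
    show w k % Q = w' k % Q
    rw [h k (by omega)]
  | succ j ih =>
    have h1 : ∀ u : ℕ → ℕ, uco Q D u k (j + 1) = (uco Q D u k j +
      u (2 * D + 2 * j + 1) * pw Q (u (2 * D + 2 * j)) k) % Q := fun u => rfl
    rw [h1, h1, ih (by omega), h _ (by omega), h _ (by omega)]

lemma sdg_congr {q c0 Q D l : ℕ} {w w' : ℕ → ℕ} (h : ∀ i < 2 * D + 2 * l, w i = w' i)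
    {j σ i : ℕ} (hj : j ≤ l) : sdg q c0 Q D w j σ i = sdg q c0 Q D w' j σ i := by
  unfold sdg lco
  split_ifs with hi
  · rw [uco_congr h (by omega) hj, uco_congr h (by omega) hj]
  · rfl

/-! ### The environment -/

/-- The environment matches the parameters; `s` is the stage, `w` is the seed of the sampler. -/
structure EPar (E : Env) (p : Par2) (w : ℕ → ℕ) : Prop where
  hw : E.w = p.q
  hL : E.L = p.L
  s1 : E.st 1 = p.q
  s3 : E.st 3 = p.r
  s7 : E.st 7 = p.D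
  s10 : E.st 10 = p.Th
  s14 : E.st 14 = p.Q
  s15 : E.st 15 = p.DC
  s16 : E.st 16 = p.c0
  s19 : E.st 19 = p.m
  s20 : E.st 20 = p.S
  qpos : 0 < p.q
  Qpos : 0 < p.Q
  c0pos : 0 < p.c0
  qB : p.q ≤ E.B
  rB : p.r ≤ E.B
  DB : p.D ≤ E.B
  ThB : p.Th ≤ E.B
  QB : p.Q ≤ E.B
  DCB : p.DC * p.c0 ≤ E.B
  DC1 : p.DC ≤ E.B
  c0B : p.c0 ≤ E.B
  mB : p.m ≤ E.B
  SB : p.S ≤ E.B
  L : p.L ≤ p.DC * p.c0
  seed : ∀ i < 2 * p.DC + 2 * p.lw, E.st (64 + 6 * p.S + i) = w i ∧ w i ≤ E.B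

variable {E : Env} {V : Orc} {p : Par2} {w : ℕ → ℕ}

theorem EPar.eok (h : EPar E p w) : EOk E p.q p.c0 p.Q p.DC :=
  ⟨h.hw, h.s1, h.qpos, h.qB, h.s14, h.Qpos, h.QB, h.s15, h.DC1, h.s16, h.c0B, h.DCB,
    by rw [h.hL]; exact h.L, by rw [h.s20]; exact h.SB⟩

theorem EPar.wE (h : EPar E p w) : ∀ i < 2 * p.DC + 2 * p.lw, wE E i = w i := by
  intro m hm
  unfold H931.wE
  rw [h.s20, (h.seed m hm).1]
  exact min_eq_left (h.seed m hm).2

theorem EPar.tok (h : EPar E p w) {t : CT.Tape} : TOk E t ↔ TpOk p t := by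
  unfold TOk TpOk
  rw [h.hw, h.hL]

/-- the shifted tape is the one of `BP.Phv` -/
theorem EPar.shT (h : EPar E p w) (t : CT.Tape) {j : ℕ} (σ : ℕ) (hj : j ≤ p.lw) :
    _root_.P313.H931.shT p.q E.L t (fun i => sdg p.q p.c0 p.Q p.DC (H931.wE E) j σ i) =
      BP.shT p w j σ t := by
  funext i
  unfold _root_.P313.H931.shT BP.shT
  rw [h.hL]
  by_cases hi : i < p.L
  · simp only [hi, if_true]
    rw [sdg_congr h.wE hj, sdg_eq_dgN]
    rw [Nat.div_lt_iff_lt_mul h.c0pos]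
    exact lt_of_lt_of_le hi h.L
  · simp only [hi, if_false]

theorem EPar.shT_ok (h : EPar E p w) {t : CT.Tape} (ht : TpOk p t) (j σ : ℕ) :
    TpOk p (BP.shT p w j σ t) := by
  constructor
  · intro i hi
    simp only [BP.shT, hi, if_true]
    exact Nat.mod_lt _ h.qpos
  · intro i hi
    simp only [BP.shT]
    rw [if_neg (by omega)]
    exact ht.2 i hi

/-! ### The programs -/

/-- the data level of the stage -/
def dLev (I : TS.Inp) (l : ℕ) : ℕ := l / stat I 19 * stat I 19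

/-- `q ^ c v`, cut at the bound -/
def pwc (I : TS.Inp) (l v : ℕ) : ℕ :=
  bpw (stat I 1) (ask I (dLev I l) (Nat.pair 1 (Nat.pair v 0))) (bnd I)

/-- the flow at the current tape; query `pair j (pair a (pair v x))` -/
def flF (I : TS.Inp) (l q : ℕ) : ℕ :=
  ∑ z ∈ range (pwc I l (q4 q)),
    (Nat.unpair (ask I (l - 1) (Nat.pair (q2 q) (Nat.pair (q3 q) (Nat.pair (q4 q) z))) - 1)).2

/-- the loss at the current tape; query `pair j x` -/
def loF (I : TS.Inp) (l q : ℕ) : ℕ :=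
  ∑ a ∈ range (stat I 3), ∑ z ∈ range (pwc I l (e2 q)),
    ask I (l - 1) (Nat.pair a (Nat.pair (e2 q) z))

/-- rounding with offset number `i` of the stage -/
def rdF (i : ℕ) (v : ℕ → ℕ) (I : TS.Inp) (l q s : ℕ) : ℕ :=
  (stat I 7 * stat I 10 * s + stat I (64 + 6 * (l / stat I 19) + i) *
    (stat I 14 * pwc I l (v q))) / (stat I 7 * (stat I 14 * pwc I l (v q))) + 1

/-- phase AVERAGE with offset number `i` (`0` for kind `0`, `3` for kind `2`) -/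
def pjP (i : ℕ) : CP := avgP flF (rdF i q3)

/-- phase AVERAGE of the loss -/
def ljP : CP := avgP loF (rdF 2 e2)

theorem lf_q1 {k : ℕ} {f : TS.Fn k} (hf : TS.LF f) : TS.LF (fun I a => q1 (f I a)) :=
  lf_unpair1 hf
theorem lf_e2 {k : ℕ} {f : TS.Fn k} (hf : TS.LF f) : TS.LF (fun I a => e2 (f I a)) :=
  lf_unpair2 hf
theorem lf_q2 {k : ℕ} {f : TS.Fn k} (hf : TS.LF f) : TS.LF (fun I a => q2 (f I a)) :=
  lf_unpair1 (lf_unpair2 hf)
theorem lf_e3 {k : ℕ} {f : TS.Fn k} (hf : TS.LF f) : TS.LF (fun I a => e3 (f I a)) :=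
  lf_unpair2 (lf_unpair2 hf)
theorem lf_q3 {k : ℕ} {f : TS.Fn k} (hf : TS.LF f) : TS.LF (fun I a => q3 (f I a)) :=
  lf_unpair1 (lf_unpair2 (lf_unpair2 hf))
theorem lf_q4 {k : ℕ} {f : TS.Fn k} (hf : TS.LF f) : TS.LF (fun I a => q4 (f I a)) :=
  lf_unpair2 (lf_unpair2 (lf_unpair2 hf))

theorem lf_pwc {k : ℕ} {f g : TS.Fn k} (hf : TS.LF f) (hg : TS.LF g) :
    TS.LF (fun I a => pwc I (f I a) (g I a)) := by
  unfold pwc dLev
  exact lf_bpw (lf_stat (TS.LF.const 1))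
    (lf_ask ((hf.div (lf_stat (TS.LF.const 19))).mul (lf_stat (TS.LF.const 19)))
      (lf_pair (TS.LF.const 1) (lf_pair hg (TS.LF.const 0)))) lf_bnd

theorem lf_flF : TS.LF (fun I a => flF I (a 0) (a 1) : TS.Fn 2) := by
  unfold flF
  refine TS.LF.sum (f := fun I b => (Nat.unpair (ask I (b 1 - 1) (Nat.pair (q2 (b 2))
    (Nat.pair (q3 (b 2)) (Nat.pair (q4 (b 2)) (b 0)))) - 1)).2)
    (n := fun I a => pwc I (a 0) (q4 (a 1))) ?_ ?_
  · exact lf_unpair2 ((lf_ask ((TS.LF.proj 1).sub (TS.LF.const 1))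
      (lf_pair (lf_q2 (TS.LF.proj 2)) (lf_pair (lf_q3 (TS.LF.proj 2))
        (lf_pair (lf_q4 (TS.LF.proj 2)) (TS.LF.proj 0))))).sub (TS.LF.const 1))
  · exact lf_pwc (TS.LF.proj 0) (lf_q4 (TS.LF.proj 1))

theorem lf_loF : TS.LF (fun I a => loF I (a 0) (a 1) : TS.Fn 2) := by
  unfold loF
  refine TS.LF.sum (f := fun I b => ∑ z ∈ range (pwc I (b 1) (e2 (b 2))),
    ask I (b 1 - 1) (Nat.pair (b 0) (Nat.pair (e2 (b 2)) z)))
    (n := fun I _ => stat I 3) ?_ (lf_stat (TS.LF.const 3))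
  refine TS.LF.sum (f := fun I b => ask I (b 2 - 1) (Nat.pair (b 1) (Nat.pair (e2 (b 3)) (b 0))))
    (n := fun I a => pwc I (a 1) (e2 (a 2))) ?_ ?_
  · exact lf_ask ((TS.LF.proj 2).sub (TS.LF.const 1))
      (lf_pair (TS.LF.proj 1) (lf_pair (lf_e2 (TS.LF.proj 3)) (TS.LF.proj 0)))
  · exact lf_pwc (TS.LF.proj 1) (lf_e2 (TS.LF.proj 2))

theorem lf_rdF (i : ℕ) {v : ℕ → ℕ} (hv : TS.LF (fun _ a => v (a 1) : TS.Fn 3)) :
    TS.LF (fun I a => rdF i v I (a 0) (a 1) (a 2) : TS.Fn 3) := by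
  unfold rdF
  have h14 : TS.LF (fun I a => stat I 14 * pwc I (a 0) (v (a 1)) : TS.Fn 3) :=
    (lf_stat (TS.LF.const 14)).mul (lf_pwc (TS.LF.proj 0) hv)
  have h8 := lf_stat (k := 3) (TS.LF.const 7)
  exact (((((h8.mul (lf_stat (TS.LF.const 10))).mul (TS.LF.proj 2)).add
    ((lf_stat (((TS.LF.const 64).add ((TS.LF.const 6).mul ((TS.LF.proj 0).div
      (lf_stat (TS.LF.const 19))))).add (TS.LF.const i))).mul h14)).div (h8.mul h14))).add
    (TS.LF.const 1)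

theorem pjP_ok (i : ℕ) : (pjP i).Ok := avgP_ok lf_flF (lf_rdF i (lf_q3 (TS.LF.proj 1)))

theorem ljP_ok : ljP.Ok := avgP_ok lf_loF (lf_rdF 2 (lf_e2 (TS.LF.proj 1)))

/-! ### The values -/

section values

variable {d : SD} {T : TSem} {Z : ℕ → Prop} {s l : ℕ}

/-- The answers about the weights which the programs use. -/
def DataC (E : Env) (V : Orc) (p : Par2) (d : SD) (s : ℕ) : Prop :=
  ∀ t, TpOk p t → ∀ y < p.n, ask (inp E V t) (s * p.m) (Nat.pair 1 (Nat.pair y 0)) = d.c y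

theorem pwc_eq (h : EPar E p w) (hl : l / p.m = s) (hd : DataC E V p d s) {t : CT.Tape}
    (ht : TpOk p t) {v : ℕ} (hv : v < p.n) (hB : p.q ^ d.c v ≤ E.B) :
    pwc (inp E V t) l v = p.q ^ d.c v := by
  unfold pwc dLev
  rw [stat_inp, stat_inp, h.s19, h.s1, min_eq_left h.mB, min_eq_left h.qB, hl, hd t ht v hv,
    bnd_inp]
  exact bpw_eq h.qpos hB

theorem flF_eq (h : EPar E p w) (hl : l / p.m = s) (hd : DataC E V p d s) {t : CT.Tape}
    (ht : TpOk p t) {q : ℕ} (hx : q4 q < p.n) (hB : p.q ^ d.c (q4 q) ≤ E.B)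
    (htour : ∀ z < p.q ^ d.c (q4 q),
      ask (inp E V t) (l - 1) (Nat.pair (q2 q) (Nat.pair (q3 q) (Nat.pair (q4 q) z))) =
        T.tour p.Lam d Z (q2 q) (q3 q) (q4 q) z t) :
    flF (inp E V t) l q = flow p T d Z (q2 q) (q3 q) (q4 q) t := by
  unfold flF flow
  rw [pwc_eq h hl hd ht hx hB]
  refine Finset.sum_congr rfl fun z hz => ?_
  rw [htour z (Finset.mem_range.1 hz)]
  unfold TSem.tour TSem.cnt
  split_ifs
  · simp
  · simp

theorem loF_eq (h : EPar E p w) (hl : l / p.m = s) (hd : DataC E V p d s) {t : CT.Tape}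
    (ht : TpOk p t) {q : ℕ} (hx : e2 q < p.n) (hB : p.q ^ d.c (e2 q) ≤ E.B)
    (htour : ∀ a < p.r, ∀ z < p.q ^ d.c (e2 q),
      ask (inp E V t) (l - 1) (Nat.pair a (Nat.pair (e2 q) z)) = T.Lo d Z a (e2 q) z t) :
    loF (inp E V t) l q = lossT p T d Z (e2 q) t := by
  unfold loF lossT
  rw [stat_inp, h.s3, min_eq_left h.rB, pwc_eq h hl hd ht hx hB]
  refine Finset.sum_congr rfl fun a ha => Finset.sum_congr rfl fun z hz => ?_
  exact htour a (Finset.mem_range.1 ha) z (Finset.mem_range.1 hz)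

theorem rdF_eq (h : EPar E p w) (hl : l / p.m = s) (hd : DataC E V p d s) {t : CT.Tape}
    (ht : TpOk p t) {i off : ℕ} (hoff : E.st (64 + 6 * s + i) = off) (hoB : off ≤ E.B)
    {v : ℕ → ℕ} {q : ℕ} (hv : v q < p.n) (hB : p.q ^ d.c (v q) ≤ E.B) (n : ℕ) :
    rdF i v (inp E V t) l q n = upN p off (p.q ^ d.c (v q)) n := by
  unfold rdF upN
  rw [pwc_eq h hl hd ht hv hB]
  simp only [stat_inp]
  rw [h.s7, h.s10, h.s19, h.s14, min_eq_left h.DB, min_eq_left h.ThB, min_eq_left h.mB,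
    min_eq_left h.QB, hl, hoff, min_eq_left hoB]

theorem accs_sumJ (h : EPar E p w) {F : TS.Inp → ℕ → ℕ → ℕ} {f : Tp → ℕ} {q : ℕ} {t : CT.Tape}
    (hF : ∀ t', TpOk p t' → F (inp E V t') l q = f t') (ht : TpOk p t) (hj : q1 q ≤ p.lw)
    (hsum : sumJ p w (q1 q) f t ≤ E.B) :
    accs E.B (fun s => F (inp E V (_root_.P313.H931.shT p.q E.L t
      (fun i => sdg p.q p.c0 p.Q p.DC (wE E) (Nat.unpair q).1 s i))) l q) p.Q =
      sumJ p w (q1 q) f t := by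
  have h1 : (fun s => F (inp E V (_root_.P313.H931.shT p.q E.L t
      (fun i => sdg p.q p.c0 p.Q p.DC (wE E) (Nat.unpair q).1 s i))) l q) =
      fun s => f (BP.shT p w (q1 q) s t) := by
    funext σ
    have e : (Nat.unpair q).1 = q1 q := rfl
    rw [e, h.shT _ _ hj, hF _ (h.shT_ok ht _ _)]
  rw [h1]
  exact accs_eq hsum

/-- **AVERAGE**, any kind. -/
theorem den_pjP (h : EPar E p w) (hl : l / p.m = s) (hd : DataC E V p d s) {t : CT.Tape}
    (ht : TpOk p t) {i off : ℕ} (hoff : E.st (64 + 6 * s + i) = off) (hoB : off ≤ E.B) {q : ℕ}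
    (hqB : q ≤ E.B) (hj : q1 q ≤ p.lw) (hv : q3 q < p.n) (hx : q4 q < p.n) (hBv : p.q ^ d.c (q3 q) ≤ E.B)
    (hBx : p.q ^ d.c (q4 q) ≤ E.B)
    (htour : ∀ t', TpOk p t' → ∀ z < p.q ^ d.c (q4 q),
      ask (inp E V t') (l - 1) (Nat.pair (q2 q) (Nat.pair (q3 q) (Nat.pair (q4 q) z))) =
        T.tour p.Lam d Z (q2 q) (q3 q) (q4 q) z t')
    (hsum : sumJ p w (q1 q) (flow p T d Z (q2 q) (q3 q) (q4 q)) t ≤ E.B) :
    (den E V (pjP i) ⟨start l q, t⟩).reg 2 =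
      min (avgV p T w d Z off (q1 q) (q2 q) (q3 q) (q4 q) t) E.B := by
  have hT : TOk E t := h.tok.2 ht
  obtain ⟨_, h2⟩ := den_avgP (V := V) h.eok flF (rdF i q3) (l := l) (q0 := q) hT hqB
  rw [accs_sumJ h (fun t' ht' => flF_eq (Z := Z) (T := T) h hl hd ht' hx hBx
    (htour t' ht')) ht hj hsum] at h2
  rw [rdF_eq h hl hd ht hoff hoB hv hBv] at h2
  exact h2

/-- **AVERAGE of the loss** -/
theorem den_ljP (h : EPar E p w) (hl : l / p.m = s) (hd : DataC E V p d s) {t : CT.Tape}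
    (ht : TpOk p t) {off : ℕ} (hoff : E.st (64 + 6 * s + 2) = off) (hoB : off ≤ E.B) {q : ℕ}
    (hqB : q ≤ E.B) (hj : q1 q ≤ p.lw) (hx : e2 q < p.n) (hBx : p.q ^ d.c (e2 q) ≤ E.B)
    (htour : ∀ t', TpOk p t' → ∀ a < p.r, ∀ z < p.q ^ d.c (e2 q),
      ask (inp E V t') (l - 1) (Nat.pair a (Nat.pair (e2 q) z)) = T.Lo d Z a (e2 q) z t')
    (hsum : sumJ p w (q1 q) (lossT p T d Z (e2 q)) t ≤ E.B) :
    (den E V ljP ⟨start l q, t⟩).reg 2 =
      min (avgL p T w d Z off (q1 q) (e2 q) t) E.B := by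
  have hT : TOk E t := h.tok.2 ht
  obtain ⟨_, h2⟩ := den_avgP (V := V) h.eok loF (rdF 2 e2) (l := l) (q0 := q) hT hqB
  rw [accs_sumJ h (fun t' ht' => loF_eq (Z := Z) (T := T) h hl hd ht' hx hBx
    (htour t' ht')) ht hj hsum] at h2
  rw [rdF_eq h hl hd ht hoff hoB hx hBx] at h2
  exact h2

/-- the tape is restored, whatever the lower levels answer -/
theorem tp_pjP (h : EPar E p w) {t : CT.Tape} (ht : TpOk p t) {q : ℕ} (hqB : q ≤ E.B) (i : ℕ) :
    (den E V (pjP i) ⟨start l q, t⟩).tp = t :=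
  (den_avgP (V := V) h.eok flF (rdF i q3) (l := l) (q0 := q) (h.tok.2 ht) hqB).1

theorem tp_ljP (h : EPar E p w) {t : CT.Tape} (ht : TpOk p t) {q : ℕ} (hqB : q ≤ E.B) :
    (den E V ljP ⟨start l q, t⟩).tp = t :=
  (den_avgP (V := V) h.eok loF (rdF 2 e2) (l := l) (q0 := q) (h.tok.2 ht) hqB).1

end values

/-! ### The phases in terms of `Ans` -/

section phases

variable {S : Sem} {T : TSem} {d : SD} {o : ℕ → ℕ} {s : ℕ}

theorem stage_div {p : Par2} {s ph : ℕ} (hph : ph < p.m) : (s * p.m + ph) / p.m = s := by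
  have hm : 0 < p.m := by omega
  rw [Nat.add_comm, Nat.add_mul_div_right _ _ hm, Nat.div_eq_of_lt hph, Nat.zero_add]

theorem dataC_of_Ans {k : ℕ} (hk : phData < k)
    (hA : Ans p S T w d o (fun ph q t => ask (inp E V t) (s * p.m + ph) q) k) :
    DataC E V p d s := by
  intro t ht y hy
  have h1 := hA phData hk (Nat.pair 1 (Nat.pair y 0)) (by
    unfold vq
    rw [if_pos rfl]
    simp only [BP.q1_pair, BP.q2_pair, BP.e3_pair]
    omega) t ht
  unfold phVal at h1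
  rw [if_pos rfl] at h1
  simpa [phData] using h1

theorem vq_PJ0 {q : ℕ} : vq p d phPJ0 q ↔
    q1 q ≤ p.lw ∧ q2 q < p.r ∧ q3 q < p.n ∧ q4 q < p.n := by
  unfold vq
  rw [if_neg (by decide), if_neg (by decide), if_neg, if_pos (Or.inl rfl)]
  decide

theorem vq_PJ2 {q : ℕ} : vq p d phPJ2 q ↔
    q1 q ≤ p.lw ∧ q2 q < p.r ∧ q3 q < p.n ∧ q4 q < p.n := by
  unfold vq
  rw [if_neg, if_neg, if_neg, if_pos (Or.inr rfl)]
  all_goals decide

theorem vq_LJ {q : ℕ} : vq p d phLJ q ↔ q1 q ≤ p.lw ∧ e2 q < p.n := by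
  unfold vq
  rw [if_neg, if_neg, if_neg, if_neg, if_neg, if_neg, if_neg, if_pos rfl]
  all_goals decide

theorem vq_T0 {q : ℕ} (h : q1 q < p.r ∧ q2 q ≤ p.n ∧ q3 q < p.n ∧ q4 q < p.q ^ d.c (q3 q)) :
    vq p d phT0 q := by
  unfold vq
  rw [if_neg (by decide), if_neg (by decide), if_pos (Or.inl rfl)]
  exact h

theorem vq_T2 {q : ℕ} (h : q1 q < p.r ∧ q2 q ≤ p.n ∧ q3 q < p.n ∧ q4 q < p.q ^ d.c (q3 q)) :
    vq p d phT2 q := by
  unfold vq
  rw [if_neg, if_neg, if_pos (Or.inr (Or.inr rfl))]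
  · exact h
  all_goals decide

theorem vq_LT {q : ℕ} (h : q1 q < p.r ∧ q2 q < p.n ∧ e3 q < p.q ^ d.c (q2 q)) :
    vq p d phLT q := by
  unfold vq
  rw [if_neg, if_neg, if_neg, if_neg, if_neg, if_neg, if_pos rfl]
  · exact h
  all_goals decide

theorem val_T0 {q : ℕ} {t : Tp} : phVal p S T w d o phT0 q t =
    T.tour p.Lam d (fun _ => False) (q1 q) (q2 q) (q3 q) (q4 q) t := by
  unfold phVal
  rw [if_neg (by decide), if_neg (by decide), if_pos rfl]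

theorem val_PJ0 {q : ℕ} {t : Tp} : phVal p S T w d o phPJ0 q t =
    avgV p T w d (fun _ => False) (o 0) (q1 q) (q2 q) (q3 q) (q4 q) t := by
  unfold phVal
  rw [if_neg (by decide), if_neg (by decide), if_neg (by decide), if_pos rfl]

theorem val_LT {q : ℕ} {t : Tp} : phVal p S T w d o phLT q t =
    T.Lo d (BP.Z1 p.toPar S d o) (q1 q) (q2 q) (e3 q) t := by
  unfold phVal
  rw [if_neg, if_neg, if_neg, if_neg, if_neg, if_neg, if_neg, if_neg, if_pos rfl]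
  all_goals decide

theorem val_LJ {q : ℕ} {t : Tp} : phVal p S T w d o phLJ q t =
    avgL p T w d (BP.Z1 p.toPar S d o) (o 2) (q1 q) (e2 q) t := by
  unfold phVal
  rw [if_neg, if_neg, if_neg, if_neg, if_neg, if_neg, if_neg, if_neg, if_neg, if_pos rfl]
  all_goals decide

theorem val_T2 {q : ℕ} {t : Tp} : phVal p S T w d o phT2 q t =
    T.tour p.Lam d (BP.Zs p.toPar S d o) (q1 q) (q2 q) (q3 q) (q4 q) t := by
  unfold phVal
  rw [if_neg, if_neg, if_neg, if_neg, if_neg, if_neg, if_neg, if_neg, if_neg, if_neg, if_neg,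
    if_pos rfl]
  all_goals decide

theorem val_PJ2 {q : ℕ} {t : Tp} : phVal p S T w d o phPJ2 q t =
    avgV p T w d (BP.Zs p.toPar S d o) (o 3) (q1 q) (q2 q) (q3 q) (q4 q) t := by
  unfold phVal
  rw [if_neg, if_neg, if_neg, if_neg, if_neg, if_neg, if_neg, if_neg, if_neg, if_neg, if_neg,
    if_neg, if_pos rfl]
  all_goals decide

/-- **Phase AVERAGE of kind `0`.** -/
theorem pj0_phase (h : EPar E p w) (hm : phPJ0 < p.m)
    (hA : Ans p S T w d o (fun ph q t => ask (inp E V t) (s * p.m + ph) q) phPJ0)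
    (ho : E.st (64 + 6 * s + 0) = o 0) (hoB : o 0 ≤ E.B) (hc : ∀ y < p.n, p.q ^ d.c y ≤ E.B)
    {q : ℕ} (hq : vq p d phPJ0 q) (hqB : q ≤ E.B) {t : CT.Tape} (ht : TpOk p t)
    (hsum : sumJ p w (q1 q) (flow p T d (fun _ => False) (q2 q) (q3 q) (q4 q)) t ≤ E.B) :
    (den E V (pjP 0) ⟨start (s * p.m + phPJ0) q, t⟩).reg 2 =
      min (phVal p S T w d o phPJ0 q t) E.B := by
  rw [vq_PJ0] at hq
  obtain ⟨hj, ha, hv, hx⟩ := hq
  rw [val_PJ0]
  refine den_pjP h (stage_div hm) (dataC_of_Ans (by decide) hA) ht ho hoB hqB hj hv hx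
    (hc _ hv) (hc _ hx) (fun t' ht' z hz => ?_) hsum
  have := hA phT0 (by decide) (Nat.pair (q2 q) (Nat.pair (q3 q) (Nat.pair (q4 q) z)))
    (vq_T0 (by simp only [BP.q1_pair, BP.q2_pair, BP.q3_pair, BP.q4_pair]; omega)) t' ht'
  rw [val_T0] at this
  simp only [BP.q1_pair, BP.q2_pair, BP.q3_pair, BP.q4_pair] at this
  rw [← this]
  rfl

/-- **Phase AVERAGE of kind `2`.** -/
theorem pj2_phase (h : EPar E p w) (hm : phPJ2 < p.m)
    (hA : Ans p S T w d o (fun ph q t => ask (inp E V t) (s * p.m + ph) q) (phPJ2))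
    (ho : E.st (64 + 6 * s + 3) = o 3) (hoB : o 3 ≤ E.B) (hc : ∀ y < p.n, p.q ^ d.c y ≤ E.B)
    {q : ℕ} (hq : vq p d phPJ2 q) (hqB : q ≤ E.B) {t : CT.Tape} (ht : TpOk p t)
    (hsum : sumJ p w (q1 q) (flow p T d (BP.Zs p.toPar S d o) (q2 q) (q3 q) (q4 q)) t ≤
      E.B) :
    (den E V (pjP 3) ⟨start (s * p.m + phPJ2) q, t⟩).reg 2 =
      min (phVal p S T w d o phPJ2 q t) E.B := by
  rw [vq_PJ2] at hq
  obtain ⟨hj, ha, hv, hx⟩ := hq
  rw [val_PJ2]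
  refine den_pjP h (stage_div hm) (dataC_of_Ans (by unfold phData phPJ2; omega) hA) ht ho hoB
    hqB hj hv hx (hc _ hv) (hc _ hx) (fun t' ht' z hz => ?_) hsum
  have := hA (phT2) (by unfold phT2 phPJ2; omega)
    (Nat.pair (q2 q) (Nat.pair (q3 q) (Nat.pair (q4 q) z)))
    (vq_T2 (by simp only [BP.q1_pair, BP.q2_pair, BP.q3_pair, BP.q4_pair]; omega)) t' ht'
  rw [val_T2] at this
  simp only [BP.q1_pair, BP.q2_pair, BP.q3_pair, BP.q4_pair] at this
  rw [← this]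
  have e : s * p.m + phPJ2 - 1 = s * p.m + phT2 := by unfold phT2 phPJ2; omega
  rw [e]

/-- **Phase AVERAGE of the loss.** -/
theorem lj_phase (h : EPar E p w) (hm : phLJ < p.m)
    (hA : Ans p S T w d o (fun ph q t => ask (inp E V t) (s * p.m + ph) q) (phLJ))
    (ho : E.st (64 + 6 * s + 2) = o 2) (hoB : o 2 ≤ E.B) (hc : ∀ y < p.n, p.q ^ d.c y ≤ E.B)
    {q : ℕ} (hq : vq p d phLJ q) (hqB : q ≤ E.B) {t : CT.Tape} (ht : TpOk p t)
    (hsum : sumJ p w (q1 q) (lossT p T d (BP.Z1 p.toPar S d o) (e2 q)) t ≤ E.B) :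
    (den E V ljP ⟨start (s * p.m + phLJ) q, t⟩).reg 2 =
      min (phVal p S T w d o phLJ q t) E.B := by
  rw [vq_LJ] at hq
  obtain ⟨hj, hx⟩ := hq
  rw [val_LJ]
  refine den_ljP h (stage_div hm) (dataC_of_Ans (by unfold phData phLJ; omega) hA) ht ho hoB
    hqB hj hx (hc _ hx) (fun t' ht' a ha z hz => ?_) hsum
  have := hA (phLT) (by unfold phLT phLJ; omega) (Nat.pair a (Nat.pair (e2 q) z))
    (vq_LT (by simp only [BP.q1_pair, BP.q2_pair, BP.e3_pair]; omega)) t' ht'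
  rw [val_LT] at this
  simp only [BP.q1_pair, BP.q2_pair, BP.e3_pair] at this
  rw [← this]
  have e : s * p.m + phLJ - 1 = s * p.m + phLT := by unfold phLT phLJ; omega
  rw [e]

end phases

end Vale.Agent.P313.NW.H931
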